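import Vale.Agent.P287D.Cl.Num
import Vale.Agent.P287D.Br.St
import Vale.Agent.P287Q.Hb.L11
import Vale.Agent.P287Q.Hb.PV
import Vale.Agent.P287Q.Mf.Var

/-!
# P287D, block CLS: the class map of a variety with a model
-/

set_option linter.all false

open Set Filter Topology
open Vale.Agent.P297 (Place)
open Vale.Agent.P297Z
open Vale.Agent.P277Z Vale.Agent.P277Z.FI Vale.Agent.P277Z.F5 Vale.Agent.P277Z.F5.Dg
open Vale.Agent.P291Z Vale.Agent.P269 Vale.Agent.P287Q Vale.Agent.P287Q.D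
open Vale.Agent.P269.Holo (HolOn ev_sub)
open Vale.Agent.P269.Mono (FP)
open Vale.Agent.P269.Tq (lcq sp lce_val fnd continuous_mk mk_act mk_surj)

noncomputable section

namespace Vale.Agent.P287D.Cl

open Br

attribute [local instance] cptF niceF Hb.isAct_smul

theorem isC1_lcq {A W : Type} [NormedRing A] [NormedAlgebra ℂ A] [NormedAddCommGroup W]
    [NormedSpace ℂ W] [FiniteDimensional ℂ A] [FiniteDimensional ℂ W] {act : A → W → W} {S : Set W}
    [Holo.IsAct act univ] [FP act S] {X : Type} [TopologicalSpace X] (u : C(X, Quo act S))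
    {p : X → W} (hp : ∀ x, p x ∈ S) (hu : ∀ x, u x = Quo.mk act ⟨p x, hp x⟩) {g : X → X → A}
    (hg : ∀ x y, IsUnit (g x y)) (g1 : ∀ x, g x x = 1)
    (hc : ∀ x, ∀ᶠ y in 𝓝 x, ContinuousAt (fun z => act (g x z) (p z)) y) {c : A → ℂ}
    (hm : Tq.Hm c) {φ : X → X → ℂ} (hφ : ∀ x y, c (g x y) = (φ x y)⁻¹) :
    IsC1 φ (H.map u (lcq act S c)) := by
  have h1 : ∀ x, (hg x x).unit = 1 := fun x => Units.ext (g1 x)
  refine ⟨sp act S, hm.ρ, fun x y => (hg x y).unit • Holo.Sp.of act (p y) (hp y), u,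
    fun a t e => FP.free t a e, fun x => (hc x).mono fun y k =>
      Holo.Sp.isEmbedding_val.isInducing.continuousAt_iff.2 k, fun z => ?_, fun x z =>
      ⟨(hg x z).unit, ?_, hφ x z⟩, congrArg _ (lce_val hm).symm⟩
  · exact (Holo.Sp.mk_smul _ _).trans (hu z).symm
  · simp only [h1, one_smul]

theorem pn11 (k : ℕ) : lcq (fun (a : ℂ) (x : Hdg.E k) => a • x) {0}ᶜ (fun a => a) ∈
    Hb.HN ({0}ᶜ : Set (Hdg.E k)) (Quo.mk fun a x => a • x) 1 1 :=
  (Hb.HT_nat _ _ 1 1).le (Hb.Gen.lcq_mem (φ := fun x : Hdg.E k => x) (act := fun (a : ℂ) x => a • x)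
    ⟨Tq.Hm.id, fun _ _ => analyticAt_id, fun _ h => h, fun _ _ _ _ => rfl⟩
    (Cub.sc_smul fun _ _ => rfl).qmP)

variable {n N : ℕ} {K : Type} [Field K] [Algebra ℂ K] {D : P277Z.Div K}

theorem isI_eq {M : Mdl n N K} (h : I.Pc M) {a : Fin n → P277Z.Div K} (ha : ∀ i, a i ∈ Gd M)
    {z : ℤ} (hz : IsI M a z) : I.num M a = z := by
  obtain ⟨κ, hκ⟩ := h.can
  obtain ⟨A, h1, h2, hA⟩ := h.pos.ex
  obtain ⟨m, hm⟩ := (dp_ev h.pos hA κ 0 0 a).exists
  have hg : (m : ℝ) • A + 0 ∈ Gd M := add_mem ⟨dv_smul h1 _, IsInt.nsmul h2 m⟩ (zero_mem _)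
  have l : Lg M κ ∅ := ⟨hκ, finite_empty, snc_empty h.loc⟩
  rw [I.num_int h ha, ← h.ok.isI ha κ 0 _ ∅ l (bd1_zero _) hg.1 hg.2 hm,
    hz κ 0 _ ∅ l (bd1_zero _) hg.1 hg.2 hm]

/-- a free divisor is the pull back of a hyperplane -/
theorem exists_pn {M : Mdl n N K} (hL : Loc M) (hD : IsInt D) (hf : ∀ x, M.Free D x) :
    ∃ (k : ℕ) (u : C(M.F, Quo (fun (a : ℂ) (x : Hdg.E k) => a • x) {0}ᶜ)),
      cl M D = H.map u (lcq _ _ fun a => a) ∧ ∀ x : M.F, ∃ w : M.W → Hdg.E k,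
        (∀ j, Hol n (fun y => w y j) (x : M.W)) ∧
        ∀ᶠ y : M.F in 𝓝 x, ∃ b : w y ∈ ({0}ᶜ : Set _), u y = Quo.mk _ ⟨w y, b⟩ := by
  choose f f1 f2 f3 using hf
  choose t ht using exists_le hL hD
  have f4 : ∀ x, Le M (-D) x (f x) := fun x => ⟨f2 x, fun P hP => by
    rw [Finsupp.neg_apply]; linarith [f3 x P hP]⟩
  obtain ⟨T, hT⟩ := CompactSpace.elim_nhds_subcover _ fun x => (f4 x).near hL
  obtain ⟨k, L, hi⟩ : ∃ (k : ℕ) (L : (T → ℂ) →L[ℂ] Hdg.E k), Function.Injective L :=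
    have e : ((T → ℂ) × ℂ) ≃L[ℂ] Hdg.E (Module.finrank ℂ (T → ℂ)) := .ofFinrankEq (by simp)
    ⟨_, e.toContinuousLinearMap.comp (.inl ℂ _ ℂ), e.injective.comp (Prod.mk_left_injective 0)⟩
  have := (Cub.sc_smul (N := k) (act := fun a x => a • x) fun _ _ => rfl).fp
  let w : K → M.W → Hdg.E k := fun g y => L fun i => M.val (f i * g) y
  have m : ∀ i y g, Le M D y g → f i * g ∈ M.O y := fun i y g a => hL.mem _ _ fun P hP => by
    rw [Pl.ord_mul P (f2 i) a.1, ← Int.cast_nonneg_iff (R := ℝ), Int.cast_add, ← a.2 P hP]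
    exact (f1 i).resolve_left (f2 i) P ⟨y, hP⟩
  have w1 : ∀ (y : M.F) g, Le M D y g → ∀ j, Hol n (fun z => w g z j) (y : M.W) :=
    fun y g a j e he => analyticAt_pi_iff.1 ((L.analyticAt _).comp
      (analyticAt_pi_iff.2 fun i : T => m i y g a e he)) j
  have w2 : ∀ (y : M.F) g, Le M D y g → w g y ∈ ({0}ᶜ : Set _) := fun y g a b => by
    obtain ⟨i, c, d⟩ := mem_iUnion₂.1 (hT.ge (mem_univ y))
    have e := (Le.mul d a).unit hL (le_one fun P _ => by simp)
    rw [_root_.div_one] at e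
    exact e.2 (congrFun (hi (b.trans (map_zero L).symm)) ⟨i, c⟩)
  have w3 : ∀ x, ∀ᶠ y : M.F in 𝓝 x, (fr t x y)⁻¹ • w (t y) y = w (t x) y := fun x =>
    (fr_near hL ht x).mono fun y a => (map_smul L _ _).symm.trans (congrArg L (funext fun i => by
      rw [Pi.smul_apply, smul_eq_mul, inv_mul_eq_iff_eq_mul₀ (fr_ne _ _ _), a.2,
        ← M.val_mul_at ((ht y).unit hL a.1).1 (m i y _ a.1), mul_left_comm,
        div_mul_cancel₀ _ (ht x).1]))
  have w4 : ∀ x, ∀ᶠ y : M.F in 𝓝 x, ContinuousAt (fun z : M.F => (fr t x z)⁻¹ • w (t z) z) y :=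
    fun x => by
      filter_upwards [(w3 x).eventually_nhds, (ht x).near hL] with y a b
      exact ((continuousAt_pi.2 fun j => Lo.hol_cont (w1 y _ b j)).comp
        continuousAt_subtype_val).congr (a.mono fun _ => Eq.symm)
  have un : ∀ x y, IsUnit (fr t x y)⁻¹ := fun x y => (inv_ne_zero (fr_ne t x y)).isUnit
  have w5 : ∀ x y, (fr t x y)⁻¹ • w (t y) y ∈ ({0}ᶜ : Set _) := fun x y =>
    smul_ne_zero (un x y).ne_zero (w2 y _ (ht y))
  let u : C(M.F, Quo (fun (a : ℂ) (x : Hdg.E k) => a • x) {0}ᶜ) :=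
    ⟨fun y => Quo.mk _ ⟨_, w2 y _ (ht y)⟩, continuous_iff_continuousAt.2 fun x =>
      (continuous_mk.continuousAt.comp ((IsInducing.subtypeVal.continuousAt_iff
        (f := fun y => (⟨(fr t x y)⁻¹ • w (t y) y, w5 x y⟩ : ({0}ᶜ : Set (Hdg.E k))))).2 (w4 x).self_of_nhds)).congr
        (.of_forall fun y => mk_act (un x y) (w2 y _ (ht y)) _)⟩
  refine ⟨k, u, (isC1_cl hL hD ht).unique (isC1_lcq u (fun y => w2 y _ (ht y)) (fun _ => rfl) un
    (fun x => by rw [fr_self ht, inv_one]) w4 Tq.Hm.id fun _ _ => rfl), fun x =>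
    ⟨w (t x), w1 x _ (ht x), (w3 x).mono fun y a => ⟨a ▸ w5 x y, ?_⟩⟩⟩
  exact (mk_act (un x y) (w2 y _ (ht y)) (w5 x y)).symm.trans (congrArg _ (Subtype.ext a))

variable {V : Var n} (a : Vm V K)

theorem exists_hm : ∃ e : V.X ≃ₜ a.M.F, ∀ y : V.A, e (V.pt y) = a.pt y :=
  let ⟨e, h⟩ := a.qm.exists_homeo
  ⟨e.trans ((Homeomorph.setCongr a.all).trans (Homeomorph.Set.univ _)).symm,
    fun y => Subtype.ext (h y y.2)⟩

/-- the variety is the manifold of the model -/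
def hm : V.X ≃ₜ a.M.F := (exists_hm a).choose

theorem hm_pt (y : V.A) : hm a (V.pt y) = a.pt y := (exists_hm a).choose_spec y

/-- **the class map** -/
def vcl : P277Z.Div K →ₗ[ℝ] H V.X :=
  (H.mapA (hm a : C(V.X, a.M.F))).toLinearMap.restrictScalars ℝ ∘ₗ cl a.M

theorem vcl_eq (D : P277Z.Div K) : vcl a D = H.map (hm a : C(V.X, a.M.F)) (cl a.M D) := rfl

theorem pc (h : a.M.Proj) : I.Pc a.M := ⟨h, .of_forall fun _ => Subsingleton.elim _ _⟩

theorem vcl_hg (h : a.M.Proj) (D : P277Z.Div K) : vcl a D ∈ V.Hg 1 1 := by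
  have hL := (pc a h).loc
  rw [vcl_eq, ← cl_tr hL, ← vcl_eq]
  refine (Submodule.span_le (p := ((V.Hg 1 1).restrictScalars ℝ).comap (vcl a))).2
    (fun A hA => ?_) (I.span_pol (pc a h) (dv_tr D))
  obtain ⟨k, u, h1, h2⟩ := exists_pn hL hA.int hA.free
  change vcl a A ∈ V.Hg 1 1
  rw [vcl_eq, h1, H.map_map]
  refine Mf.IsHd.pull_lift' (fun x hx => ⟨_, V.pv.mfd x hx⟩) _ (fun y => ?_) (pn11 k)
  obtain ⟨w, w1, w2⟩ := h2 (a.pt y)
  obtain ⟨Φ, p, q⟩ := HolOn.pi fun j => (a.hol y y.2 _).1 (w1 j)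
  refine ⟨Φ, p, ?_⟩
  filter_upwards [((hm a).continuous.comp continuous_mk).continuousAt.eventually
    (hm_pt a y ▸ w2), (ev_sub y.2).2 q] with z ⟨b, c⟩ d
  have e : w (hm a (V.pt z)) = Φ z := by rw [hm_pt]; exact d
  exact ⟨e ▸ b, c.trans (congrArg _ (Subtype.ext e))⟩

theorem lifts (V : Var n) : ∃ (p : V.X → V.A) (g : V.X → V.X → V.R → ℂ), (∀ x, V.pt (p x) = x) ∧
    (∀ x y, IsUnit (g x y)) ∧ (∀ x, g x x = 1) ∧
      ∀ x, ∀ᶠ y in 𝓝 x, ContinuousAt (fun z => scl V.π (g x z) (p z)) y := by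
  classical
  letI := Mf.cs (n := n) V.qm.dim
  choose p hp using mk_surj (act := scl V.π) (S := V.A)
  have h := fun x => (Mf.pres (n := n) V.qm.dim).sec (p x)
  simp only [hp] at h
  choose σ h1 h2 h3 using h
  have k : ∀ x z, ∃ t, IsUnit t ∧ (z = x → t = 1) ∧ ∀ b : σ x (chartAt _ x z) ∈ V.A,
      V.pt ⟨_, b⟩ = z → scl V.π t (p z) = σ x (chartAt _ x z) := fun x z => by
    by_cases e : z = x
    · exact ⟨1, isUnit_one, fun _ => rfl, fun _ _ => by rw [scl_one, e, h2]⟩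
    by_cases b : ∃ b : σ x (chartAt _ x z) ∈ V.A, V.pt ⟨_, b⟩ = z
    · obtain ⟨t, c, d⟩ := V.pv.mk_eq_iff.1 ((hp z).trans b.2.symm)
      exact ⟨t, c, fun c => absurd c e, fun _ _ => d.symm⟩
    · exact ⟨1, isUnit_one, fun _ => rfl, fun c d => absurd ⟨c, d⟩ b⟩
  choose g g1 g2 g3 using k
  refine ⟨p, g, hp, g1, fun x => g2 x x rfl, fun x => ?_⟩
  filter_upwards [(h3 x).eventually_nhds, (Mf.cont_chart x).eventually (h1 x).eventually_analyticAt,
    chart_source_mem_nhds (Fin n → ℂ) x] with y b c d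
  exact (c.continuousAt.comp ((chartAt _ x).continuousAt d)).congr
    (b.mono fun z e => (g3 x z e.1 e.2).symm)

theorem vcl_lc (h : a.M.Proj) {d : V.R → ℤ} {F : (V.J → ℂ) → ℂ} (hF : Sec V d F)
    (hD : a.IsDiv F D) : vcl a D = V.lc d := by
  have hL := (pc a h).loc
  obtain ⟨p, g, h1, h2, h3, h4⟩ := lifts V
  choose t u t1 t2 u1 u2 u3 t3 using fun x => hD.2 _ (p x).2
  have e : ∀ x, a.pt (p x) = hm a x := fun x => by rw [← hm_pt, h1]
  have ht : ∀ x, Le a.M D x (t ((hm a).symm x)) := fun x =>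
    ⟨t2 _, fun P hP => t3 _ P (by rwa [e, Homeomorph.apply_symm_apply])⟩
  have hI : IsInt D := fun P => by
    by_cases b : a.M.Pr P
    · exact ⟨_, (ht _).2 P b.choose_spec⟩
    · exact ⟨0, (dv_iff.1 hD.1 P b).trans Int.cast_zero.symm⟩
  have m : ∀ x z, scl V.π (g x z) (p z) ∈ V.A := fun x z => V.pv.inv _ (h2 x z) _ (p z).2
  have l : ∀ x, Tendsto (fun z => scl V.π (g x z) (p z)) (𝓝 x) (𝓝[V.A] (p x)) := fun x =>
    tendsto_nhdsWithin_iff.2 ⟨by simpa only [ContinuousAt, h3, scl_one] using (h4 x).self_of_nhds,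
      .of_forall (m x)⟩
  have hc := isC1_lcq (ContinuousMap.id V.X) (fun x => (p x).2) (fun x => (h1 x).symm) h2 h3 h4
    (Hb.hm_prod Finset.univ fun r => Hb.hm_zpow (hm_crd r) (d r))
    (φ := fun x y => (∏ r, g x y r ^ d r)⁻¹) fun _ _ => (inv_inv _).symm
  refine (map_cl hL hI ht (hm a : C(V.X, a.M.F)) hc (s := fun y => u y (p y)) u2
    (w := fun x y => u x (scl V.π (g x y) (p y))) (fun x => ?_) fun x => ?_).symm.trans
    (H.map_id (fun _ => rfl) _)
  · have := ((u1 x).tendsto (p x).2).comp (l x)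
    rwa [ContinuousAt, h3, scl_one]
  obtain ⟨Φ, c1, c2⟩ := u1 x
  filter_upwards [(l x).eventually (eventually_nhdsWithin_of_eventually_nhds
      ((c1.eventually_analyticAt.and c2.eventually_nhds).and (u3 x).eventually_nhds)),
    (hm a).continuous.continuousAt.eventually ((ht _).near hL),
    (hm a).continuous.continuousAt.eventually (a.M.O_near (e x ▸ t1 x))] with y b c c'
  have o := ht (hm a y)
  simp only [ContinuousMap.coe_coe, Homeomorph.symm_apply_apply] at c o ⊢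
  rw [← e y] at c c' o ⊢
  have n0 : (∏ r, g x y r ^ d r) ≠ 0 := fun k => hc.ne x y (by rw [k, inv_zero])
  have tq : Tendsto a.q (𝓝[V.A] (p y)) (𝓝 (a.q (p y))) := a.qm.cont _ (p y).2
  have ts : Tendsto (scl V.π (g x y)) (𝓝[V.A] (p y)) (𝓝[V.A] (scl V.π (g x y) (p y))) :=
    tendsto_nhdsWithin_iff.2 ⟨(continuous_scl.comp (continuous_const.prodMk
      continuous_id)).continuousAt.mono_left nhdsWithin_le_nhds,
      eventually_mem_nhdsWithin.mono fun z => V.pv.inv _ (h2 x y) z⟩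
  refine tendsto_nhds_unique_of_frequently_eq (((u1 y).tendsto (p y).2).mul
    ((Lo.hol_cont (o.unit hL c).1).tendsto.comp tq)) ((((HolOn.tendsto ⟨Φ, b.1.1, b.1.2⟩
      (m x y))).comp ts).mul_const _) ?_
  have z0 : ∃ᶠ z in 𝓝[V.A] (p y), a.M.val (t x) (a.q z) ≠ 0 := fun k =>
    a.M.not_zero (x := a.pt (p y)) (t2 x) ((a.qm.ev (p y).2).2
      ((eventually_nhdsWithin_iff.1 k).mono fun _ r s => not_not.1 (r s)))
  refine (z0.and_eventually (eventually_mem_nhdsWithin.and ((eventually_nhdsWithin_iff.2 (u3 y)).and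
    ((ts.eventually (eventually_nhdsWithin_iff.2 b.2)).and
      (tq.eventually (a.M.nhds_mul (o.unit hL c).1 c')))))).mono fun z ⟨r0, r1, r2, r3, r4⟩ => ?_
  rw [hF.eqv _ (h2 x y) _ r1, a.qm.scl r1 (h2 x y), r2] at r3
  rw [div_mul_cancel₀ _ (t2 x)] at r4
  refine (eq_mul_inv_iff_mul_eq₀ n0).2 (mul_right_cancel₀ r0 ?_)
  simp only [Function.comp_apply]
  rw [← r3, r4]
  ring

theorem fd_var : Fd a.M (P291Z.res (hm a).symm (fnd (scl V.π) V.A)) := by
  letI := Mf.cs (n := n) V.qm.dim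
  refine fd_of (V.qm.ori.deg.res _) fun x => ?_
  obtain ⟨x, rfl⟩ := (hm a).surjective x
  obtain ⟨y, rfl⟩ := mk_surj x
  obtain ⟨σ, h1, h2, h3⟩ := (Mf.pres (n := n) V.qm.dim).sec y
  obtain ⟨r, h4, h5⟩ := (Mf.pres (n := n) V.qm.dim).prj y
  have hv := Mf.val_fnd (n := n) V.qm.dim (V.pt y)
  have hs := mem_chart_source (Fin n → ℂ) (V.pt y)
  unfold Mf.cch at hv
  generalize chartAt (Fin n → ℂ) (V.pt y) = c at h1 h2 h3 h5 hv hs
  have t0 : Tendsto (fun z => z + c (V.pt y)) (𝓝 0) (𝓝 (c (V.pt y))) :=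
    (continuous_add_const _).tendsto' _ _ (zero_add _)
  have t1 := t0.eventually_mem (c.open_target.mem_nhds (c.map_source hs))
  have e0 : c.symm (0 + c (V.pt y)) = V.pt y := by rw [zero_add, c.left_inv hs]
  have k : Chs a.M (fun z => hm a (c.symm (z + c (V.pt y)))) fun w =>
      c ((hm a).symm ⟨w, a.all ▸ mem_univ _⟩) - c (V.pt y) := by
    refine ⟨t1.mono fun z b => (hm a).continuous.continuousAt.comp (ContinuousAt.comp
      (g := c.symm) (c.continuousAt_symm b) (continuous_add_const _).continuousAt),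
      fun f hf => ?_, fun j => ?_, t1.mono fun z b => ?_, ?_⟩
    · rw [e0, hm_pt] at hf
      obtain ⟨Φ, p, q⟩ := (a.hol y y.2 f).1 hf
      refine ((p.comp_of_eq h1 h2).comp_of_eq (analyticAt_id.add analyticAt_const)
        (zero_add _)).congr ?_
      filter_upwards [t1, ((c.tendsto_symm hs).comp t0).eventually h3,
        ((h2 ▸ h1.continuousAt.tendsto).comp t0).eventually q] with z b ⟨d, e⟩ s
      simp only [Function.comp_apply, c.right_inv b] at d e s
      rw [← e, hm_pt]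
      exact (s d).symm
    · rw [e0, hm_pt]
      refine (a.hol y y.2 _).2 ⟨fun w => r w j - c (V.pt y) j,
        (analyticAt_pi_iff.1 h4 j).sub analyticAt_const, ?_⟩
      refine (ev_sub y.2).1 (h5.mono fun z b => ?_)
      exact congrArg (· j - _) ((congrArg c ((hm a).symm_apply_eq.2 (hm_pt a z).symm)).trans b.symm)
    · simp only [Subtype.coe_eta, Homeomorph.symm_apply_apply, c.right_inv b, add_sub_cancel_right]
    · rw [e0]
      filter_upwards [(hm a).symm.continuous.continuousAt.eventually_mem (c.open_source.mem_nhds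
        (by rwa [Homeomorph.symm_apply_apply]))] with w b
      simp only [Subtype.coe_eta, sub_add_cancel, c.left_inv b, Homeomorph.apply_symm_apply]
  exact ⟨_, _, congrArg _ e0, k, Orb.Val.res (hm a).symm.isOpenEmbedding k.cont.self_of_nhds
    (hv.congr (.of_forall fun z => ((hm a).symm_apply_apply _).symm))⟩

theorem int_map (c : H a.M.F) : V.int (H.map (hm a : C(V.X, a.M.F)) c) =
    Loc.intg (P291Z.res (hm a).symm (fnd (scl V.π) V.A)) c := by
  obtain ⟨b, h1, rfl⟩ := hcls_surj c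
  have h2 := cocycle_pull (hm a).continuous h1
  rw [H.map_hcls _ h1, Var.int, ContinuousMap.coe_coe, Loc.intg_hcls _ h2, Loc.intg_hcls _ h1,
    ← Orb.ev_res (hm a).symm.isOpenEmbedding _ ⟨(isClosed_supp _).isCompact, h2⟩
      (by rw [Homeomorph.range_coe]; exact subset_univ _), pull_pull, Homeomorph.self_comp_symm,
    pull_id]

/-- the integral of a product of classes is the intersection number -/
theorem vcl_num (h : a.M.Proj) (D : Fin n → P277Z.Div K) :
    V.int (List.ofFn fun i => vcl a (D i)).prod = I.num a.M D := by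
  rw [← intg_num n K a.M _ (pc a h) (fd_var a) D, ← int_map, map_list_prod (H.map _), List.map_ofFn]
  rfl

theorem cls (h : a.M.Proj) : Cls a (vcl a) where
  add := map_add _
  smul c D := (map_smul _ _ _).trans (Complex.coe_smul _ _).symm
  tr D := congrArg (H.map _) (cl_tr (pc a h).loc D)
  int D hD := ⟨Zc.Lam.map _ (cl_mem (pc a h).loc hD).1, (cl_deg (pc a h).loc D).map _⟩
  hg := vcl_hg a h
  div f hf := (congrArg (H.map _) (cl_div (pc a h).loc hf)).trans (map_zero _)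
  lc _ _ _ := vcl_lc a h
  num D z hD hz := by
    rw [vcl_num a h, isI_eq (pc a h) hD hz, Complex.ofReal_intCast]

theorem vcl_pull {Y : Var n} {p : Ext Y V} {b : Vm Y K} (h : a.M.Proj) (h' : b.M.Proj)
    (o : Over p b a) (D : P277Z.Div K) : vcl b (a.M.pull b.M D) = p.pb (vcl a D) := by
  obtain ⟨μ, o⟩ := o
  rw [vcl_eq, cl_pull (pc a h).loc (pc b h').loc ((pc a h).bir μ h'), H.map_map]
  refine (congrArg (H.map · _) (ContinuousMap.ext (mk_surj.forall.2 fun y => ?_))).trans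
    (H.map_map _ _ _).symm
  exact (congrArg (mp μ) (hm_pt b y)).trans ((Subtype.ext (o y y.2)).trans
    (hm_pt a ⟨_, p.map _ y.2⟩).symm)

/-- **CLS** -/
theorem cls_of (h : Br.PRJ) : Br.CLS :=
  ⟨fun _ _ _ _ _ a => vcl a, fun n V K _ _ a => cls a (h n V K a),
    fun n V K _ _ a Y _ b o => vcl_pull a (h n V K a) (h n Y K b) o⟩

end Vale.Agent.P287D.Cl
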