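import Vale.Agent.P287D.I.Bas
import Vale.Agent.P277Z.Rst.Alg
import Vale.Agent.P287Q.D.C1Ex
import Vale.Agent.P287Q.D.C1Mul

/-!
# P287D, block CLS: the cohomology class of a divisor on a model
-/

set_option linter.all false

open Set Filter Topology
open Vale.Agent.P297 (Place)
open Vale.Agent.P297Z
open Vale.Agent.P277Z Vale.Agent.P277Z.FI Vale.Agent.P277Z.F5 Vale.Agent.P277Z.F5.Dg
open Vale.Agent.P291Z Vale.Agent.P287Q Vale.Agent.P287Q.D

noncomputable section

namespace Vale.Agent.P287D.Cl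

variable {n N : ℕ} {K : Type} [Field K] [Algebra ℂ K] {M : Mdl n N K} {D E : P277Z.Div K}
  {x y : M.F} {f g h : K} {t t' t'' : M.F → K} {c c' c'' : H M.F}

theorem cptF (M : Mdl n N K) : CompactSpace M.F := isCompact_iff_compactSpace.1 M.cpt

theorem niceF (M : Mdl n N K) : Nice M.F :=
  haveI := cptF M
  ⟨inferInstance, inferInstance, inferInstance⟩

attribute [local instance] cptF niceF

/-- `f` is a local equation of `D` at `x` -/
def Le (M : Mdl n N K) (D : P277Z.Div K) (x : M.F) (f : K) : Prop :=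
  f ≠ 0 ∧ ∀ P, M.On x P → D P = P.ord f

theorem Le.near (hL : Loc M) (h : Le M D x f) : ∀ᶠ y in 𝓝 x, Le M D y f := by
  have hf : ({P | M.Pr P ∧ P.ord f ≠ 0} ∪ D.support).Finite :=
    (hL.fin f).union D.support.finite_toSet
  filter_upwards [(eventually_all_finite hf).2 fun P _ => hL.near x P] with y hy
  refine ⟨h.1, fun P hP => by_contra fun k => k (h.2 P (hy P (by_contra fun e => k ?_) hP))⟩
  rw [mem_union, not_or] at e
  rw [Finsupp.notMem_support_iff.1 e.2, not_not.1 fun a => e.1 ⟨⟨y, hP⟩, a⟩, Int.cast_zero]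

theorem Le.unit (hL : Loc M) (a : Le M D x f) (b : Le M D x g) :
    f / g ∈ M.O x ∧ M.val (f / g) x ≠ 0 :=
  Lb.unit_of hL (div_ne_zero a.1 b.1) fun P hP => by
    rw [Pl.ord_div P a.1 b.1, sub_eq_zero, ← Int.cast_inj (α := ℝ), ← a.2 P hP, b.2 P hP]

theorem Le.mul (a : Le M D x f) (b : Le M E x g) : Le M (D + E) x (f * g) :=
  ⟨mul_ne_zero a.1 b.1, fun P hP => by
    rw [Pl.ord_mul P a.1 b.1, Finsupp.add_apply, a.2 P hP, b.2 P hP, Int.cast_add]⟩

theorem Le.tri (hL : Loc M) (a : Le M D x f) (b : Le M D x g) (c : Le M D x h) :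
    M.val (f / g) x * M.val (g / h) x = M.val (f / h) x := by
  rw [← M.val_mul_at (a.unit hL b).1 (b.unit hL c).1, div_mul_div_cancel₀ b.1]

theorem le_div (hL : Loc M) (hf : f ≠ 0) (x : M.F) : Le M (M.div f) x f :=
  ⟨hf, fun _ hP => div_apply hL f ⟨x, hP⟩⟩

theorem le_gn (hL : Loc M) {P : Place K} (a : M.Gn x P f) : Le M (Finsupp.single P 1) x f :=
  ⟨gn_ne a, fun Q hQ => by
    by_cases e : Q = P
    · rw [e, a.ord, Finsupp.single_eq_same, Int.cast_one]
    · rw [hL.other x P Q f a hQ e, Finsupp.single_eq_of_ne e, Int.cast_zero]⟩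

theorem le_one (a : ∀ P, M.On x P → D P = 0) : Le M D x 1 :=
  ⟨one_ne_zero, fun P hP => by rw [a P hP, Pl.ord_one, Int.cast_zero]⟩

theorem exists_le (hL : Loc M) (hD : IsInt D) (x : M.F) : ∃ f, Le M D x f := by
  choose e he using hD
  have k : ∀ P ∈ D.support, M.eqn x P ^ e P ≠ 0 := fun P _ => zpow_ne_zero _ (eqn_ne x P)
  refine ⟨∏ P ∈ D.support, M.eqn x P ^ e P, Finset.prod_ne_zero_iff.2 k, fun Q hQ => ?_⟩
  rw [ord_prod Q _ k, ← ordAt_on hL hQ, Int.cast_sum]
  exact Finset.sum_congr rfl fun P _ => by rw [Pl.ord_zpow, he, Int.cast_mul]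

open Classical in
/-- the frames given by local equations -/
def fr (t : M.F → K) (x y : M.F) : ℂ :=
  if M.val (t y / t x) y = 0 then 1 else M.val (t y / t x) y

theorem fr_ne (t : M.F → K) (x y : M.F) : fr t x y ≠ 0 := by
  unfold fr
  split_ifs with k
  exacts [one_ne_zero, k]

theorem fr_eq (hL : Loc M) (ht : ∀ x, Le M D x (t x)) (a : Le M D y (t x)) :
    fr t x y = M.val (t y / t x) y := if_neg ((ht y).unit hL a).2

theorem fr_near (hL : Loc M) (ht : ∀ x, Le M D x (t x)) (x : M.F) :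
    ∀ᶠ y in 𝓝 x, Le M D y (t x) ∧ fr t x y = M.val (t y / t x) y :=
  ((ht x).near hL).mono fun _ a => ⟨a, fr_eq hL ht a⟩

theorem fr_self (ht : ∀ x, Le M D x (t x)) (x : M.F) : fr t x x = 1 := by
  rw [fr, div_self (ht x).1, M.val_one, if_neg one_ne_zero]

theorem coc (hL : Loc M) (ht : ∀ x, Le M D x (t x)) : Coc (fr t) :=
  ⟨fr_self ht, fr_ne t, fun x => ((ht x).near hL).mono fun y a =>
    (M.O_cont ((ht y).unit hL a).1).congr (by
      filter_upwards [a.near hL, fr_near hL ht y] with z b c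
      rw [fr_eq hL ht b, eq_div_iff (fr_ne t y z), c.2, mul_comm, (ht z).tri hL c.1 b])⟩

/-- `c` is the class of `D` -/
def IsCl (M : Mdl n N K) (D : P277Z.Div K) (c : H M.F) : Prop :=
  ∃ t, (∀ x, Le M D x (t x)) ∧ IsC1 (fr t) c

theorem IsCl.add (hL : Loc M) (a : IsCl M D c) (b : IsCl M E c') (d : IsCl M (D + E) c'') :
    c'' = c + c' := by
  obtain ⟨t, a1, a2⟩ := a
  obtain ⟨t', b1, b2⟩ := b
  obtain ⟨t'', d1, d2⟩ := d
  refine stC1Mul _ _ _ _ c c' c'' (fun y => M.val (t'' y / (t y * t' y)) y) a2 b2 d2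
    (fun y => ((d1 y).unit hL ((a1 y).mul (b1 y))).2) fun x =>
    (M.O_cont ((d1 x).unit hL ((a1 x).mul (b1 x))).1).congr ?_
  filter_upwards [fr_near hL a1 x, fr_near hL b1 x, fr_near hL d1 x] with y p q r
  rw [eq_div_iff (fr_ne _ _ _), p.2, q.2, r.2, mul_comm, (d1 y).tri hL r.1 (p.1.mul q.1), mul_assoc,
    ← M.val_mul_at ((a1 y).unit hL p.1).1 ((b1 y).unit hL q.1).1, div_mul_div_comm,
    (d1 y).tri hL ((a1 y).mul (b1 y)) (p.1.mul q.1)]

theorem isCl_div (hL : Loc M) (hf : f ≠ 0) : IsCl M (M.div f) 0 :=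
  ⟨fun _ => f, le_div hL hf, by
    rw [show fr (fun _ : M.F => f) = fun _ _ => 1 from funext₂ fun x y => by
      rw [fr, div_self hf, M.val_one, if_neg one_ne_zero]]
    exact isC1_one _⟩

theorem IsCl.congr (a : IsCl M D c) (e : ∀ P, M.Pr P → E P = D P) : IsCl M E c :=
  a.imp fun _ k => ⟨fun x => ⟨(k.1 x).1, fun P hP => (e P ⟨x, hP⟩).trans ((k.1 x).2 P hP)⟩, k.2⟩

theorem isCl_zero (hL : Loc M) : IsCl M 0 0 := div_one hL ▸ isCl_div hL one_ne_zero

theorem IsCl.unique (hL : Loc M) (a : IsCl M D c) (b : IsCl M D c') : c = c' :=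
  (b.add hL (isCl_zero hL) ((add_zero D).symm ▸ a)).trans (add_zero _)

theorem exists_isCl (hL : Loc M) (hD : IsInt D) : ∃ c ∈ Zc.Lk M.F 2, IsCl M D c := by
  choose t ht using exists_le hL hD
  obtain ⟨c, a, b⟩ := stC1Ex _ _ (coc hL ht)
  exact ⟨c, a, t, ht, b⟩

variable (M) in
/-- **the class of a divisor** -/
def cl : P277Z.Div K →ₗ[ℝ] H M.F :=
  Finsupp.linearCombination ℝ fun P => Classical.epsilon (IsCl M (Finsupp.single P 1))

theorem int_ind {p : P277Z.Div K → Prop} (h0 : p 0) (add : ∀ D E, IsInt D → IsInt E →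
    p D → p E → p (D + E)) (neg : ∀ D, IsInt D → p D → p (-D))
    (one : ∀ P, p (Finsupp.single P 1)) (hD : IsInt D) : p D := by
  have k : D ∈ AddSubgroup.closure (range fun P => (Finsupp.single P 1 : P277Z.Div K)) := by
    choose e he using hD
    rw [← Finsupp.sum_single D, Finsupp.sum]
    refine sum_mem fun P _ => ?_
    rw [show Finsupp.single P (D P) = e P • Finsupp.single P (1 : ℝ) by
      rw [Finsupp.smul_single, he, zsmul_one]]
    exact zsmul_mem (AddSubgroup.subset_closure (mem_range_self P)) _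
  clear hD
  refine (?_ : IsInt D ∧ p D).2
  induction k using AddSubgroup.closure_induction with
  | mem _ h => obtain ⟨P, rfl⟩ := h; exact ⟨IsInt.single P, one P⟩
  | zero => exact ⟨IsInt.zero, h0⟩
  | add D E _ _ c d => exact ⟨IsInt.add c.1 d.1, add D E c.1 d.1 c.2 d.2⟩
  | neg D _ b => exact ⟨IsInt.neg b.1, neg D b.1 b.2⟩

theorem isCl_cl (hL : Loc M) (hD : IsInt D) : IsCl M D (cl M D) := by
  refine int_ind (p := fun D => IsCl M D (cl M D)) (by rw [map_zero]; exact isCl_zero hL)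
    (fun D E a b c d => ?_) (fun D a b => ?_) (fun P => ?_) hD
  · obtain ⟨e, -, k⟩ := exists_isCl hL (IsInt.add a b)
    rwa [map_add, ← c.add hL d k]
  · obtain ⟨e, -, k⟩ := exists_isCl hL (IsInt.neg a)
    rwa [map_neg, neg_eq_of_add_eq_zero_right
      (b.add hL k ((add_neg_cancel D).symm ▸ isCl_zero hL)).symm]
  · obtain ⟨e, -, k⟩ := exists_isCl hL (IsInt.single P)
    rw [cl, Finsupp.linearCombination_single, one_smul]
    exact Classical.epsilon_spec ⟨e, k⟩

theorem cl_mem (hL : Loc M) (hD : IsInt D) : cl M D ∈ Zc.Lk M.F 2 :=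
  let ⟨_, a, b⟩ := exists_isCl hL hD
  b.unique hL (isCl_cl hL hD) ▸ a

theorem isC1_cl (hL : Loc M) (hD : IsInt D) (ht : ∀ x, Le M D x (t x)) :
    IsC1 (fr t) (cl M D) :=
  let ⟨_, _, b⟩ := stC1Ex _ _ (coc hL ht)
  IsCl.unique hL ⟨t, ht, b⟩ (isCl_cl hL hD) ▸ b

theorem cl_div (hL : Loc M) (hf : f ≠ 0) : cl M (M.div f) = 0 :=
  (isCl_cl hL (int_div hL f)).unique hL (isCl_div hL hf)

theorem cl_off (hL : Loc M) {P : Place K} (hP : ¬ M.Pr P) : cl M (Finsupp.single P 1) = 0 :=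
  (isCl_cl hL (IsInt.single P)).unique hL ((isCl_zero hL).congr fun Q hQ =>
    Finsupp.single_eq_of_ne fun e : Q = P => hP (e ▸ hQ))

theorem ext1 {V : Type} [AddCommGroup V] [Module ℝ V] {a b : P277Z.Div K →ₗ[ℝ] V}
    (e : ∀ P, a (Finsupp.single P 1) = b (Finsupp.single P 1)) (D : P277Z.Div K) : a D = b D :=
  DFunLike.congr_fun (Finsupp.lhom_ext' fun P => LinearMap.ext_ring (e P)) D

theorem cl_tr (hL : Loc M) (D : P277Z.Div K) : cl M (M.tr D) = cl M D :=
  ext1 (a := cl M ∘ₗ trl M) (fun P => by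
    rw [LinearMap.comp_apply, trl_apply]
    by_cases k : M.Pr P
    · rw [I.tr_single k]
    · rw [I.tr_single_off k, map_zero, cl_off hL k]) D

theorem cl_deg (hL : Loc M) (D : P277Z.Div K) : H.IsDeg 2 (cl M D) := by
  rw [cl, Finsupp.linearCombination_apply]
  refine (H.deg _ 2).sum_mem fun P _ => (H.deg _ 2).smul_of_tower_mem _ ?_
  have := (cl_mem hL (IsInt.single P)).2
  rwa [cl, Finsupp.linearCombination_single, one_smul] at this

theorem cl_prR (hL : Loc M) (hD : D ∈ PrR M) : cl M D = 0 :=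
  (Submodule.span_le (p := LinearMap.ker (cl M))).2 (by rintro _ ⟨f, a, rfl⟩; exact cl_div hL a) hD

/-- comparison along a map -/
theorem map_cl {X : Type} [TopologicalSpace X] [Nice X] (hL : Loc M) (hD : IsInt D)
    (ht : ∀ x, Le M D x (t x)) (u : C(X, M.F)) {φ : X → X → ℂ} {c : H X} (hc : IsC1 φ c)
    {s : X → ℂ} (hs : ∀ x, s x ≠ 0) {w : X → X → ℂ} (hw : ∀ x, ContinuousAt (w x) x)
    (e : ∀ x, ∀ᶠ y in 𝓝 x, s y * M.val (t (u y) / t (u x)) (u y) = w x y * φ x y) :
    c = H.map u (cl M D) :=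
  ((isC1_cl hL hD ht).pull u).congr hc hs fun x => (hw x).congr (by
    filter_upwards [e x, u.continuous.continuousAt.eventually (fr_near hL ht (u x))] with y a b
    rw [b.2, a, mul_div_cancel_right₀ _ (hc.ne x y)])

section pull

variable {M' : Mdl n N K} {m : Mod M' M}

/-- the map of the compact manifolds -/
def mp (m : Mod M' M) : C(M'.F, M.F) :=
  ⟨pt m, Continuous.subtype_mk (continuous_iff_continuousAt.2 fun y : M'.F =>
    (m.cont y y.2).comp continuousAt_subtype_val) _⟩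

theorem Le.pull (hL : Loc M) (hB : Bir M' M m) {y : M'.F} (a : Le M D (pt m y) f) :
    Le M' (M.pull M' D) y f :=
  ⟨a.1, fun Q hQ => by
    rw [pull_on hB hQ, ← ordAt_div hL (ct_pt hB hQ) a.1, ← sub_add_cancel D (M.div f), ordAt_add,
      ordAt_eq_zero Q fun P hP => by
        rw [Finsupp.sub_apply, div_apply hL f ⟨_, hP⟩, a.2 P hP, sub_self], zero_add]⟩

theorem cl_pull (hL : Loc M) (hL' : Loc M') (hB : Bir M' M m) (D : P277Z.Div K) :
    cl M' (M.pull M' D) = H.map (mp m) (cl M D) := by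
  refine ext1 (a := cl M' ∘ₗ pl hB) (b := (H.mapA (mp m)).toLinearMap.restrictScalars ℝ ∘ₗ cl M)
    (fun P => ?_) D
  choose t ht using exists_le hL (IsInt.single P)
  have k : ∀ y, Le M' _ y (t (pt m y)) := fun y => (ht _).pull hL hB
  refine map_cl hL (IsInt.single P) ht (mp m) (isC1_cl hL' (pull_int hB (IsInt.single P)) k)
    (s := fun _ => 1) (fun _ => one_ne_zero) (w := fun _ _ => 1) (fun _ => continuousAt_const)
    fun x => ?_
  filter_upwards [fr_near hL' k x, (mp m).continuous.continuousAt.eventually ((ht _).near hL)]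
    with y a b
  exact congrArg _ (a.2.trans ((hB.le y _ rfl).2 _ ((ht _).unit hL b).1).self_of_nhds).symm

end pull

section res

variable {M : Mdl (n + 1) N K} {P : Place K} (u : SubM M P)

/-- the inclusion of the compact manifolds -/
def inc : C(u.S.F, M.F) := ⟨Rs.pt u.s, Rs.pt_cont u.s⟩

theorem Le.res (hL : Loc M) (hD : D P = 0) {y : u.S.F} (a : Le M D (Rs.pt u.s y) f) :
    P.ord f = 0 ∧ Le u.S (u.s.rs D) y (u.s.res f) :=
  have k : P.ord f = 0 := Int.cast_eq_zero.1 ((a.2 P (Rs.on_pt u.s y)).symm.trans hD)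
  ⟨k, Rs.res_ne u.s a.1 k, fun Q hQ => by
    rw [Rs.ord_res u.s hL (ct_of_on hQ) a.1 k, u.rst.rs y Q D hD hQ]
    exact Rs.rho_congr u.s fun R b _ => (a.2 R b).trans (div_apply hL f ⟨_, b⟩).symm⟩

theorem cl_rs (hL : Loc M) (hS : Loc u.S) (hD : D P = 0) (hI : IsInt D) :
    cl u.S (u.s.rs D) = H.map (inc u) (cl M D) := by
  choose t ht using exists_le hL hI
  have k := fun y => (ht _).res u hL hD (y := y)
  refine map_cl hL hI ht (inc u) (isC1_cl hS (rs_int u.rst hD hI) fun y => (k y).2)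
    (s := fun _ => 1) (fun _ => one_ne_zero) (w := fun _ _ => 1) (fun _ => continuousAt_const)
    fun x => ?_
  filter_upwards [fr_near hS (fun y => (k y).2) x,
    (inc u).continuous.continuousAt.eventually ((ht _).near hL)] with y a b
  refine congrArg _ (a.2.trans ?_).symm
  rw [← Rs.res_div u.s (Rs.ring_of (k y).1.ge) (k x).1]
  exact Rs.res_at u.s ((ht _).unit hL b).1

theorem cl_r (hL : Loc M) (hS : Loc u.S) (D : P277Z.Div K) :
    cl u.S (u.r D) = H.map (inc u) (cl M D) := by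
  refine ext1 (a := cl u.S ∘ₗ u.r) (b := (H.mapA (inc u)).toLinearMap.restrictScalars ℝ ∘ₗ cl M)
    (fun Q => ?_) D
  have h0 : u.t ≠ 0 := fun e => by
    have := u.ht
    rw [e, div_apply hL _ ⟨_, Rs.on_pt u.s ⟨_, u.S.conn.nonempty.some_mem⟩⟩, Pl.ord_zero] at this
    exact zero_ne_one (Int.cast_zero.symm.trans this)
  obtain ⟨k, hk⟩ := IsInt.single Q P
  refine (cl_rs u hL hS (nr_self u.ht _) ?_).trans (congrArg _ ?_)
  · rw [nr_apply, hk]
    exact IsInt.sub (IsInt.single Q) (IsInt.zsmul (int_div hL _) k)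
  · rw [nr_apply, map_sub, map_smul, cl_div hL h0, smul_zero, sub_zero]

end res

end Vale.Agent.P287D.Cl
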