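import Vale.Agent.P287D.Cl.Fr
import Vale.Agent.P287Q.D.C1Deg

/-!
# P287D, block CLS: intersection numbers are integrals of products of classes
-/

set_option linter.all false

open Set Filter Topology
open Vale.Agent.P297 (Place)
open Vale.Agent.P297Z
open Vale.Agent.P277Z Vale.Agent.P277Z.FI Vale.Agent.P277Z.F5 Vale.Agent.P277Z.F5.Dg
open Vale.Agent.P291Z Vale.Agent.P269 Vale.Agent.P287Q Vale.Agent.P287Q.D

noncomputable section

namespace Vale.Agent.P287D.Cl

attribute [local instance] cptF niceF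

/-- the class of a line bundle with a section is given by a Thom cocycle -/
theorem thom {X : Type} [TopologicalSpace X] {φ : X → X → ℂ} {c : H X} (hc : IsC1 φ c)
    (h0 : ∀ x, φ x x = 1) {s : X → ℂ}
    (hs : ∀ x, ∀ᶠ z in 𝓝 x, ContinuousAt (fun y => s y / φ x y) z) :
    ∃ T, IsCo {z | s z = 0} 1 T ∧ c = hcls T ∧ ∀ γ : (Fin 1 → ℂ) → X,
      (∀ᶠ w in 𝓝 0, ContinuousAt γ w ∧ s (γ w) / φ (γ 0) (γ w) = w 0) →
      Orb.LocCo (pull γ T) 1 := by
  have hn := hc.ne
  obtain ⟨Y, χ, v, u, -, hv, hu, hg, rfl⟩ := hc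
  let E := Ch.char χ
  let ψ : X → X → E.V := fun x z => ⟨(v x z, s z / φ x z), trivial⟩
  have h1 : ∀ x z, E.tot.π (ψ z z) = E.tot.π (ψ x z) := fun x z => by
    obtain ⟨g, a, b⟩ := hg x z
    refine (E.tot.fib _ _).2 ⟨g, Subtype.ext (Prod.ext a ?_)⟩
    show (χ g : ℂ) * (s z / φ z z) = s z / φ x z
    rw [b, h0, _root_.div_one, div_eq_inv_mul]
  have h2 : ∀ x, ∀ᶠ z in 𝓝 x, ContinuousAt (ψ x) z := fun x =>
    ((hv x).and (hs x)).mono fun z a =>
      IsInducing.subtypeVal.continuousAt_iff.2 (a.1.prodMk a.2)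
  let σ : C(X, E.tot.X) := ⟨fun z => E.tot.π (ψ z z), continuous_iff_continuousAt.2 fun x => by
    rw [funext (h1 x)]
    exact E.tot.cont.continuousAt.comp (h2 x).self_of_nhds⟩
  have h3 : E.proj.map.comp σ = u := ContinuousMap.ext fun z => (E.proj.map_π _).trans (hu z)
  refine ⟨pull σ E.th, ⟨cocycle_pull σ.continuous E.th_cocycle, E.th_deg.pull _, fun z hz => ?_⟩,
    ?_, fun γ hγ => ?_⟩
  · have := Ch.VB.mk_mem_Z.1 (E.th_supp (supp_pull σ.continuous _ hz))
    exact (div_eq_zero_iff.1 this).resolve_right (hn z z)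
  · rw [← H.map_hcls σ E.th_cocycle, ← E.map_proj_zero (hcls E.th), H.map_map σ, h3]
    rfl
  · have e : ∀ w w' : Fin 1 → ℂ, w 0 = w' 0 → w = w' := fun w w' a =>
      funext fun i => by rwa [Subsingleton.elim i 0]
    rw [pull_pull, show σ ∘ γ = E.tot.π ∘ fun z => ψ (γ 0) (γ z) from funext fun z => h1 _ _]
    refine Orb.locCo_thom (r := 1) rfl E.isThom
      (m := fun _ => ContinuousLinearMap.pi fun _ => ContinuousLinearMap.id ℂ ℂ) ?_
      (fun w _ h => congrFun h 0) hγ.self_of_nhds.2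
      (hγ.mono fun z a b => e _ _ (a.2.symm.trans b))
      (Orb.posGerm_id.co.pull_congr (hγ.mono fun z a => e _ _ a.2))
    exact (hγ.and (hγ.self_of_nhds.1.eventually (h2 _))).mono fun z a =>
      ⟨ContinuousAt.comp (g := ψ (γ 0)) a.2 a.1.1, continuousAt_const⟩

variable {n N : ℕ} {K : Type} [Field K] [Algebra ℂ K]

section chart

variable {M : Mdl n N K} {Ψ Ψ' : (Fin n → ℂ) → M.F} {p p' : M.W → Fin n → ℂ} {β : BM M.F}

/-- `Ψ` is a holomorphic chart with the inverse `p` -/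
structure Chs (M : Mdl n N K) (Ψ : (Fin n → ℂ) → M.F) (p : M.W → Fin n → ℂ) : Prop where
  cont : ∀ᶠ z in 𝓝 0, ContinuousAt Ψ z
  an : ∀ a, Hol n a (Ψ 0 : M.W) → AnalyticAt ℂ (fun z => a (Ψ z)) 0
  hol : ∀ j, Hol n (fun y => p y j) (Ψ 0 : M.W)
  left : ∀ᶠ z in 𝓝 0, p (Ψ z) = z
  right : ∀ᶠ y : M.F in 𝓝 (Ψ 0), Ψ (p y) = y

theorem Chs.pch (h : Chs M Ψ p) : Orb.PCh Ψ :=
  (h.cont.and h.left).mono fun z a => ⟨a.1, fun e => by rw [← a.2, e, h.left.self_of_nhds]⟩

theorem Chs.rep (h : Chs M Ψ p) (h' : Chs M Ψ' p') (e : Ψ 0 = Ψ' 0) : Orb.Rep Ψ Ψ' := by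
  have k := h.cont.self_of_nhds.eventually (e ▸ h'.right)
  refine ⟨fun z => p' (Ψ z), Orb.posGerm_of_left_inverse (θ' := fun z => p (Ψ' z))
    (by rw [e, h'.left.self_of_nhds]) (analyticAt_pi_iff.2 fun j => h.an _ (e ▸ h'.hol j))
    (analyticAt_pi_iff.2 fun j => h'.an _ (e ▸ h.hol j)).differentiableAt ?_,
    k.mono fun _ => Eq.symm⟩
  filter_upwards [k, h.left] with z a b
  rw [a, b]

theorem exists_chs (hC : Cpt M) {x : M.F} {t : Fin n → K} (ht : M.Coord x t) :
    ∃ Ψ, Ψ 0 = x ∧ Chs M Ψ fun y j => M.val (t j) y := by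
  classical
  obtain ⟨c, c1, c2, c3⟩ := SubH.exists_cht (fun j => (ht.1 j).1) ht.2
  have c0 : c x = 0 := funext fun j => (c3 _ c2 j).trans (ht.1 j).2
  have hF : ∀ᶠ y in 𝓝 (x : M.W), y ∈ M.F :=
    ((hC.and M.fib).filter_mono (nhds_le_nhdsSet x.2)).mono fun _ a => a.2.1 a.1
  let Ψ : (Fin n → ℂ) → M.F := fun z => if a : c.symm z ∈ M.F then ⟨_, a⟩ else x
  have t0 : Tendsto c.symm (𝓝 0) (𝓝 x) := c0 ▸ c.tendsto_symm c2
  have t1 : ∀ᶠ z in 𝓝 0, z ∈ c.target := c.open_target.mem_nhds (c0 ▸ c.map_source c2)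
  have k : ∀ᶠ z in 𝓝 0, (Ψ z : M.W) = c.symm z :=
    (t0.eventually hF).mono fun z a => congrArg Subtype.val (dif_pos a)
  have k0 : Ψ 0 = x := Subtype.ext (k.self_of_nhds.trans (c0 ▸ c.left_inv c2))
  refine ⟨Ψ, k0, ?_, fun a ha => ?_, fun j => k0 ▸ (ht.1 j).1, ?_, ?_⟩
  · filter_upwards [k.eventually_nhds, t1] with z a b
    exact IsInducing.subtypeVal.continuousAt_iff.2
      ((c.continuousAt_symm b).congr (a.mono fun _ => Eq.symm))
  · exact (c0 ▸ c1.inv _ c2 a (k0 ▸ ha)).congr (k.mono fun _ e => congrArg a e.symm)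
  · filter_upwards [k, t1] with z a b
    rw [a, ← funext (c3 _ (c.map_target b)), c.right_inv b]
  · rw [k0]
    filter_upwards [continuousAt_subtype_val.eventually_mem (c.open_source.mem_nhds c2)] with y a
    rw [← funext (c3 _ a)]
    exact Subtype.ext ((congrArg Subtype.val (dif_pos ((c.left_inv a).symm ▸ y.2))).trans
      (c.left_inv a))

/-- `β` is the fundamental class -/
def Fd (M : Mdl n N K) (β : BM M.F) : Prop :=
  BM.IsDeg (2 * n) β ∧ ∀ Ψ p, Chs M Ψ p → Orb.Val β Ψ 1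

theorem fd_of (h : BM.IsDeg (2 * n) β) (e : ∀ x, ∃ Ψ p, Ψ 0 = x ∧ Chs M Ψ p ∧ Orb.Val β Ψ 1) :
    Fd M β := ⟨h, fun Ψ _ a =>
  let ⟨_, _, b, c, d⟩ := e (Ψ 0)
  (c.rep a b).val' d⟩

end chart

theorem fd_zero {M : Mdl 0 N K} (h : I.Pc M) {β : BM M.F} (hβ : Fd M β) : Loc.intg β 1 = 1 := by
  have k : ∀ x : M.F, ∃ Ψ p, Ψ 0 = x ∧ Chs M Ψ p := fun x =>
    let ⟨_, a⟩ := h.loc.coord x
    let ⟨Ψ, b, c⟩ := exists_chs h.cpt a
    ⟨Ψ, _, b, c⟩
  have : DiscreteTopology M.F := discreteTopology_iff_singleton_mem_nhds.2 fun x => by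
    obtain ⟨Ψ, p, rfl, a⟩ := k x
    exact a.right.mono fun y b => b.symm.trans (congrArg Ψ (Subsingleton.elim _ _))
  have := Subtype.connectedSpace M.conn
  have := PreconnectedSpace.trivial_of_discrete (X := M.F)
  obtain ⟨Ψ, p, -, a⟩ := k (Classical.arbitrary _)
  rw [← hcls_one, Loc.intg_hcls _ cocycle_one, ← one_mul (ev β 1)]
  exact hβ.2 Ψ p a 1 1 cocycle_one (fun _ _ => Subsingleton.elim _ _)
    (by rw [map_one]; exact Orb.locCo_tau)

/-- **restriction to a smooth prime divisor** -/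
theorem fd_res {M : Mdl (n + 1) N K} (h : I.Pc M) {P : Place K} (u : SubM M P) (hs : M.Snc {P})
    {β : BM M.F} (hβ : Fd M β) : ∃ γ, Fd u.S γ ∧
      ∀ c, Loc.intg β (cl M (Finsupp.single P 1) * c) = Loc.intg γ (H.map (inc u) c) := by
  have hL := h.loc
  have k : ∀ x, ∃ f, Le M (Finsupp.single P 1) x f ∧ f ∈ M.O x ∧ (M.val f x = 0 → M.On x P) ∧
      (M.On x P → ∃ t i, M.Coord x t ∧ f = t i ∧ M.Gn x P f) := fun x => by
    by_cases a : M.On x P
    · obtain ⟨t, b, c⟩ := hs.2 x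
      obtain ⟨i, c⟩ := c P rfl a
      exact ⟨t i, le_gn hL c, c.mem, fun _ => a, fun _ => ⟨t, i, b, rfl, c⟩⟩
    · exact ⟨1, le_one fun Q b => Finsupp.single_eq_of_ne fun e : Q = P => a (e ▸ b), one_mem _,
        fun b => absurd ((M.val_one _).symm.trans b) one_ne_zero, fun b => absurd b a⟩
  choose τ k1 k2 k3 k4 using k
  have k5 : ∀ x, ∀ᶠ y in 𝓝 x, M.val (τ y) y / fr τ x y = M.val (τ x) y := fun x => by
    filter_upwards [fr_near hL k1 x, M.O_near (k2 x)] with y a b
    rw [div_eq_iff (fr_ne _ _ _), a.2, ← M.val_mul_at b ((k1 y).unit hL a.1).1,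
      mul_div_cancel₀ _ (k1 x).1]
  obtain ⟨T, T1, T2, T3⟩ := thom (isC1_cl hL (IsInt.single P) k1) (fr_self k1)
    (s := fun y => M.val (τ y) y) fun x => by
      filter_upwards [(k5 x).eventually_nhds, M.O_near (k2 x)] with y a b
      exact (M.O_cont b).congr (a.mono fun _ => Eq.symm)
  have hi : IsClosedEmbedding (inc u) := (inc u).continuous.isClosedEmbedding fun y y' e =>
    Subtype.ext (u.s.inj (congrArg Subtype.val e))
  have T4 : IsCo (range (inc u)) 1 T := ⟨T1.cocycle, T1.deg, fun z a =>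
    let ⟨y, b, c⟩ := (u.s.on z).1 (k3 z (T1.supp a))
    ⟨⟨y, b⟩, Subtype.ext c⟩⟩
  refine ⟨gys (inc u) T β, fd_of (by
    have := hβ.1.gys (inc u) T4.deg; convert this using 1; push_cast; ring) fun y => ?_, fun c => ?_⟩
  · obtain ⟨t, i, a, b, c⟩ := k4 _ (Rs.on_pt u.s y)
    obtain ⟨Ψ, d, e⟩ := exists_chs h.cpt a
    obtain ⟨ψ, d', e'⟩ := exists_chs (h.sub u hs).cpt (u.s.coord y t i a (b ▸ c))
    let L := LinearEquiv.funCongrLeft ℂ ℂ ((finSuccEquiv' i).trans finSuccEquivLast.symm)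
    have L1 : ∀ v w, L (Fin.append v w) i = w 0 := fun v w =>
      (congrArg (Fin.append v w) (by simp; rfl)).trans (Fin.append_right v w 0)
    have L2 : ∀ v w j, L (Fin.append v w) (i.succAbove j) = v j := fun v w j =>
      (congrArg (Fin.append v w) (by simp; rfl)).trans (Fin.append_left v w j)
    have r : Orb.Rep (fun z => Ψ (L z)) Ψ := ⟨L, Orb.posGerm_linearEquiv L, .of_forall fun _ => rfl⟩
    have tL : Tendsto L (𝓝 0) (𝓝 0) := (Orb.posGerm_linearEquiv L).germ.tendsto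
    have tΨ : Tendsto Ψ (𝓝 0) (𝓝 (Rs.pt u.s y)) := d ▸ e.cont.self_of_nhds
    refine ⟨ψ, _, d', e', Orb.Val.gys hi T4 hβ.1 (r.pch e.pch) (d := 1)
      ((one_mul (1 : ℂ)).symm ▸ r.val e.pch (hβ.2 _ _ e)) one_ne_zero ?_ ?_ (T3 _ ?_)⟩
    · have tψ : Tendsto ψ (𝓝 0) (𝓝 y) := d' ▸ e'.cont.self_of_nhds
      filter_upwards [((inc u).continuous.continuousAt.tendsto.comp tψ).eventually (d ▸ e.right),
        e'.left, (continuousAt_subtype_val.tendsto.comp tψ).eventually
          (eventually_all.2 fun j => u.s.val y (t j) (a.1 j).1)] with v p q s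
      refine p.symm.trans (congrArg Ψ (funext fun j => (s j).symm.trans ?_))
      refine i.succAboveCases ?_ (fun j => (congrFun q j).trans (L2 _ _ j).symm) j
      rw [L1, Rs.res_pos u.s (by rw [← b, c.ord]; exact one_pos), u.S.val_zero]
      rfl
    · have t1 := tL.comp (Orb.tendsto_append (m := n) (k := 1))
      filter_upwards [t1.eventually e.left, (tΨ.comp t1).eventually (hL.near_gn _ P _ c)]
        with w p q s
      have := (q.1 (k3 _ (T1.supp s))).van
      rw [b] at this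
      exact funext fun j => by
        rw [Subsingleton.elim j 0]
        exact (L1 w.1 w.2).symm.trans ((congrFun p i).symm.trans this)
    · have t1 := tL.comp (Orb.tendsto_append_right (m := n) (k := 1))
      have cL : Continuous fun w : Fin 1 → ℂ => L (Fin.append 0 w) :=
        L.toContinuousLinearEquiv.continuous.comp
          (continuous_append continuous_const continuous_id)
      filter_upwards [t1.eventually e.left, t1.eventually e.cont, (tΨ.comp t1).eventually (k5 _)]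
        with w p q s
      refine ⟨ContinuousAt.comp (g := Ψ) q cL.continuousAt, ?_⟩
      rw [Orb.append_zero, map_zero, d]
      exact s.trans (b ▸ (congrFun p i).trans (L1 _ _))
  · obtain ⟨a, b, rfl⟩ := hcls_surj c
    rw [(cl_deg hL _).commute even_two, T2, ← hcls_mul b T1.cocycle, H.map_hcls _ b,
      Loc.intg_hcls _ (cocycle_mul b T1.cocycle), Loc.intg_hcls _ (cocycle_pull hi.continuous b),
      Orb.ev_gys hi T4.cocycle T4.supp β (Near.of_Zc ⟨(isClosed_supp _).isCompact, b⟩)]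

/-- **intersection numbers are integrals** -/
theorem intg_num : ∀ (n : ℕ) (K : Type) [Field K] [Algebra ℂ K] (M : Mdl n N K) (β : BM M.F),
    I.Pc M → Fd M β → ∀ a : Fin n → P277Z.Div K,
      Loc.intg β (List.ofFn fun i => cl M (a i)).prod = I.num M a
  | 0, K, _, _, M, β, h, hβ, a => by
    rw [I.num_zero h, List.ofFn_zero, List.prod_nil, fd_zero h hβ, Complex.ofReal_one]
  | n + 1, K, _, _, M, β, h, hβ, a => by
    have hL := h.loc
    let b : Fin n → P277Z.Div K := fun i => M.tr (a i.succ)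
    let c := (List.ofFn fun i => cl M (b i)).prod
    have one : ∀ P, M.Snc {P} → Loc.intg β (cl M (Finsupp.single P 1) * c) =
        I.num M (Fin.cons (Finsupp.single P 1) b) := fun P hs => by
      obtain ⟨u⟩ := h.ex_sub hs
      obtain ⟨γ, h1, h2⟩ := fd_res h u hs hβ
      rw [h2, I.num_res h u hs fun _ => dv_tr _, ← intg_num n _ u.S γ (h.sub u hs) h1,
        map_list_prod, List.map_ofFn]
      simp only [cl_r u hL (h.sub u hs).loc, Function.comp_def, b]
    have all : ∀ D ∈ Submodule.span ℝ {A | Pol M A},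
        Loc.intg β (cl M D * c) = I.num M (Fin.cons D b) := fun D hD => by
      induction hD using Submodule.span_induction with
      | mem A hA =>
        obtain ⟨f, Y, h1, h2, -, -, h3⟩ := h.cut hA.dv hA.int hA.free finite_empty
          (snc_empty hL) finite_empty
        have e : A = ∑ P ∈ Y, Finsupp.single P 1 - M.div f := by rw [← h2, add_sub_cancel_left]
        rw [e, I.cons_sub, I.cons_prR h (Submodule.subset_span ⟨f, h1, rfl⟩), map_sub,
          cl_div hL h1, sub_zero, sub_zero, I.cons_sum, map_sum, Finset.sum_mul, map_sum,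
          Complex.ofReal_sum]
        exact Finset.sum_congr rfl fun P hP => one P
          (snc_mono h3 (singleton_subset_iff.2 (Or.inr hP)))
      | zero => rw [I.cons_zero, map_zero, zero_mul, map_zero, Complex.ofReal_zero]
      | add D E _ _ p q => rw [I.cons_add, map_add, add_mul, map_add, p, q, Complex.ofReal_add]
      | smul r D _ p =>
        rw [I.cons_smul, map_smul, ← Complex.coe_smul, smul_mul_assoc, map_smul, p, smul_eq_mul,
          Complex.ofReal_mul]
    rw [← I.num_tr a, List.ofFn_succ, List.prod_cons, ← cl_tr hL, ← Fin.cons_self_tail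
      fun i => M.tr (a i)]
    refine Eq.trans ?_ (all _ (I.span_pol h (dv_tr (a 0))))
    simp only [b, c, cl_tr hL]

end Vale.Agent.P287D.Cl
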