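import Vale.Agent.P287D.Cl.Main
import Vale.Agent.P287D.Br.Bas

/-!
# P287D, block CLS: the class map, for any map of spaces given by the model
-/

set_option linter.all false

open Vale.Agent.P277Z Vale.Agent.P291Z Vale.Agent.P269 Vale.Agent.P287Q
open Vale.Agent.P269.Tq (mk_surj)

noncomputable section

namespace Vale.Agent.P287D.Cl

open Br

variable {n : ℕ} {K : Type} [Field K] [Algebra ℂ K] {V : Var n} (a : Vm V K)

theorem exists_um : ∃ u : C(V.X, a.M.F), ∀ y (h : y ∈ V.A), u (V.pt ⟨y, h⟩) = a.pt y :=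
  ⟨hm a, fun y h => hm_pt a ⟨y, h⟩⟩

variable {u : C(V.X, a.M.F)} (hu : ∀ y (h : y ∈ V.A), u (V.pt ⟨y, h⟩) = a.pt y)

include hu

theorem um_eq : u = (hm a : C(V.X, a.M.F)) :=
  ContinuousMap.ext (mk_surj.forall.2 fun y => (hu y y.2).trans (hm_pt a y).symm)

theorem vcl_um (D : P277Z.Div K) : H.map u (cl a.M D) = vcl a D := by
  rw [um_eq a hu, vcl_eq]

theorem cls_um : Cls a fun D => H.map u (cl a.M D) := by
  simp only [vcl_um a hu]
  exact cls a a.proj

theorem num_um (D : Fin n → P277Z.Div K) :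
    V.int (List.ofFn fun i => H.map u (cl a.M (D i))).prod = I.num a.M D := by
  simp only [vcl_um a hu]
  exact vcl_num a a.proj D

omit hu in
/-- **CLS**, with no hypothesis -/
theorem cls' : Br.CLS := cls_of Br.prj

end Vale.Agent.P287D.Cl
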